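import Vale.Agent.P181.R2.H959.FMul
import Vale.Agent.P181.R2.H188.W2
import Vale.Agent.P181.R2.H923.FR2
import Vale.Agent.P181.TL.DefsP

set_option autoImplicit false

open scoped TensorProduct

/-!
# P181, BAL: balancing the first two rows

Products of highest weight vectors never lower `λ_1 - λ_2` below the value of a factor. The
transvectant does: if `f` has weight `mu`, the `g_j` have weight `nu`, `r = nu_1 - nu_2` and the
`r + 1` polynomials `s ↦ g_j (n(s) φ)` are linearly independent for one `φ`, then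
`f ↦ (T (f, g_j))_j` is injective, where `T (f, g) = ∑ (-1)^i i! (R - i)! f_i g_(r-i)`.
-/

open MvPolynomial

namespace Vale.Agent.P181.BAL

open Vale.Agent.P181 Vale.Agent.P181.H280 Vale.Agent.P181.H54 Vale.Agent.P181.FR

/-- The lower unipotent matrix `e_0 ↦ e_0 + s e_1`. -/
noncomputable def ns (k : ℕ) (s : ℂ) : Matrix (Fin (k + 2)) (Fin (k + 2)) ℂ :=
  1 + Matrix.single 1 0 s

/-- The value of a plethysm vector at a form. -/
noncomputable def ev {b a n : ℕ} (φ : Module.Dual ℂ (Sym[ℂ]^a (Fin n → ℂ))) (x : Pleth b a n) : ℂ :=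
  symEval (fun _ : Fin b => φ) (x : Sym[ℂ]^b (Sym[ℂ]^a (Fin n → ℂ)))

/-- **(B1)** the coefficients of `s ↦ n(s) x`. -/
def Line : Prop := ∀ a b k : ℕ, ∃ D : ℕ → (Pleth b a (k + 2) →ₗ[ℂ] Pleth b a (k + 2)),
  ∀ (s : ℂ) (x : Pleth b a (k + 2)),
    plethAct b a (k + 2) (ns k s) x = ∑ i ∈ Finset.range (a * b + 1), s ^ i • D i x

/-- **(B2)** the law of the line of a highest weight vector. -/
def Law : Prop := ∀ (a b k : ℕ) (mu : Fin (k + 2) → ℕ) (x : Pleth b a (k + 2)),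
  x ∈ hwSpace mu (plethAct b a (k + 2)) → mu 1 ≤ mu 0 →
  ∀ g : Matrix (Fin (k + 2)) (Fin (k + 2)) ℂ, IsBorel g → ∀ s : ℂ, g 0 0 + g 0 1 * s ≠ 0 →
    plethAct b a (k + 2) g (plethAct b a (k + 2) (ns k s) x) =
      ((g 0 0 + g 0 1 * s) ^ (mu 0 - mu 1) * ((g 0 0 * g 1 1) ^ mu 1 *
        ∏ i : Fin k, g i.succ.succ i.succ.succ ^ mu i.succ.succ)) •
      plethAct b a (k + 2) (ns k (g 1 1 * s / (g 0 0 + g 0 1 * s))) x

/-- The contraction of binary forms of degrees `R` and `r`. -/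
noncomputable def ctr (R r : ℕ) (p q : ℕ → ℂ) : ℂ :=
  ∑ i ∈ Finset.range (r + 1), (-1) ^ i * (i.factorial : ℂ) * ((R - i).factorial : ℂ) * p i * q (r - i)

/-- **(B3)** the contraction is equivariant. -/
def Contr : Prop := ∀ (R r : ℕ) (p p' q q' : ℕ → ℂ) (α β δ : ℂ), r ≤ R → α ≠ 0 → δ ≠ 0 →
  (∀ s : ℂ, α + β * s ≠ 0 → ∑ i ∈ Finset.range (R + 1), p' i * s ^ i =
    (α + β * s) ^ R * ∑ i ∈ Finset.range (R + 1), p i * (δ * s / (α + β * s)) ^ i) →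
  (∀ s : ℂ, α + β * s ≠ 0 → ∑ i ∈ Finset.range (r + 1), q' i * s ^ i =
    (α + β * s) ^ r * ∑ i ∈ Finset.range (r + 1), q i * (δ * s / (α + β * s)) ^ i) →
  ctr R r p' q' = α ^ R * δ ^ r * ctr R r p q

/-- **(B4)** the degree of the line of a highest weight vector. -/
def Deg : Prop := ∀ (R N : ℕ) (p p' : ℕ → ℂ),
  (∀ s : ℂ, 1 + s ≠ 0 → ∑ i ∈ Finset.range (N + 1), p' i * s ^ i =
    (1 + s) ^ R * ∑ i ∈ Finset.range (N + 1), p i * (s / (1 + s)) ^ i) →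
  ∀ i, R < i → i ≤ N → p i = 0

/-- **(B5)** the transfer (from B1, B2, B3, B4). -/
def Transfer : Prop := ∀ (a b B k r : ℕ) (mu nu lam : Fin (k + 2) → ℕ)
  (g : Fin (r + 1) → Pleth B a (k + 2)), nu 1 + r = nu 0 → mu 1 + r ≤ mu 0 →
  lam 0 = mu 0 + nu 1 → lam 1 = mu 1 + nu 0 →
  (∀ i : Fin k, lam i.succ.succ = mu i.succ.succ + nu i.succ.succ) →
  (∀ j, g j ∈ hwSpace nu (plethAct B a (k + 2))) →
  (∃ φ : Module.Dual ℂ (Sym[ℂ]^a (Fin (k + 2) → ℂ)),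
    LinearIndependent ℂ (fun j => fun s : ℂ => ev φ (plethAct B a (k + 2) (ns k s) (g j)))) →
  plethMult b a (k + 2) mu ≤ (r + 1) * plethMult (b + B) a (k + 2) lam

/-- The weight `K (5 a - 6, 4 a + 6, 0, ..)`. -/
def nuK (a K k : ℕ) : Fin (k + 2) → ℕ := fun i =>
  if (i : ℕ) = 0 then K * (5 * a - 6) else if (i : ℕ) = 1 then K * (4 * a + 6) else 0

/-- `w` copies: a highest weight vector whose line is `c ε^w (s^i + ε R(ε, s))` at `φ ε`. -/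
def HasLine {B a k : ℕ} (φ : ℂ → Module.Dual ℂ (Sym[ℂ]^a (Fin (k + 2) → ℂ))) (w i : ℕ)
    (y : Pleth B a (k + 2)) : Prop :=
  ∃ (c : ℂ) (R : Polynomial (Polynomial ℂ)), c ≠ 0 ∧ ∀ ε s : ℂ,
    ev (φ ε) (plethAct B a (k + 2) (ns k s) y) =
      c * ε ^ w * (s ^ i + ε * (R.eval (Polynomial.C ε)).eval s)

/-- **(B6)** nine letters. -/
def Nine : Prop := ∀ a k : ℕ, 12 ≤ a →
  ∃ φ : ℂ → Module.Dual ℂ (Sym[ℂ]^a (Fin (k + 2) → ℂ)), ∀ i ≤ a - 12,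
    ∃ y ∈ hwSpace (nuK a 1 k) (plethAct 9 a (k + 2)), HasLine φ 7 i y

/-- **(B7)** `9 K` letters (from B6, products). -/
def NineK : Prop := ∀ a k K : ℕ, 12 ≤ a →
  ∃ φ : ℂ → Module.Dual ℂ (Sym[ℂ]^a (Fin (k + 2) → ℂ)), ∀ i ≤ K * (a - 12),
    ∃ y ∈ hwSpace (nuK a K k) (plethAct (9 * K) a (k + 2)), HasLine φ (7 * K) i y

/-- **(B8)** independence for one `ε` (from B7; pure linear algebra). -/
def Fam : Prop := ∀ a k K : ℕ, 12 ≤ a →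
  ∃ g : Fin (K * (a - 12) + 1) → Pleth (9 * K) a (k + 2),
    (∀ j, g j ∈ hwSpace (nuK a K k) (plethAct (9 * K) a (k + 2))) ∧
    ∃ φ : Module.Dual ℂ (Sym[ℂ]^a (Fin (k + 2) → ℂ)),
      LinearIndependent ℂ (fun j => fun s : ℂ => ev φ (plethAct (9 * K) a (k + 2) (ns k s) (g j)))

/-- **(B9)** balancing (from B5, B8). -/
def Balance : Prop := ∀ (a b k K : ℕ) (mu lam : Fin (k + 2) → ℕ), 12 ≤ a →
  mu 1 + K * (a - 12) ≤ mu 0 → lam 0 = mu 0 + K * (4 * a + 6) → lam 1 = mu 1 + K * (5 * a - 6) →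
  (∀ i : Fin k, lam i.succ.succ = mu i.succ.succ) →
  plethMult b a (k + 2) mu ≤ (K * (a - 12) + 1) * plethMult (b + 9 * K) a (k + 2) lam

/-- **(B10)** all shapes with two long rows, arbitrary tail (from `TL.UpB`, `TL.BalB`, `TL.LowP`,
`TL.GrowP`, B9). -/
def CoreD : Prop := ∀ (a b k q m X K : ℕ) (lam : Fin (k + 3) → ℕ), ∑ i, lam i = a * b → 12 ≤ a →
  q = 5 + 16 * TL.dn2 lam / a ^ 2 → 8 * q ≤ m → 40 * q ≤ a → 1 ≤ X →
  2 * m * q * (2 * X) ≤ TL.dn2 lam / a / q → 9 * (a + b) * (a + TL.dn2 lam) ≤ a ^ 2 * X ^ 4 →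
  a * b + 1 ≤ 2 ^ (4 * a) → lam 1 ≤ lam 0 →
  lam 2 + 2 * q ^ 2 * a + 2 * m * q ^ 2 * (2 * X) * a + q ^ 2 * a * (a / m) + 2 * a +
    K * (5 * a - 6) ≤ lam 1 →
  3 * q * a + 3 * ((lam 1 + TL.dn2 lam - K * (5 * a - 6)) / a) + 3 + 9 * K ≤ b →
  plethMult a b (k + 3) lam ≤ plethMult b a (k + 3) lam

/-- **(B11)** final form: no condition on `λ_1 - λ_2`. -/
def TwoLongD : Prop := ∀ θ : ℝ, 0 < θ → ∃ C : ℝ, 0 < C ∧ ∀ (a b k : ℕ) (lam : Fin (k + 3) → ℕ),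
  Antitone lam → ∑ i, lam i = a * b → C * a ≤ b → (lam 2 : ℝ) + θ * (a : ℝ) ^ 2 ≤ lam 1 →
  C * (TL.dn2 lam : ℝ) ≤ a * b →
  plethMult a b (k + 3) lam ≤ plethMult b a (k + 3) lam

end Vale.Agent.P181.BAL
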